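import Vale.Agent.P225.Assembly.Witness

/-!
P225, Q1 (Yau's dimension comparison) is false in dimension four.
-/

namespace Vale.Agent.Results.P225.YauComparisonFalse

open Vale.Agent.P225

/-- There is a complete smooth metric on `ℝ⁴` with nonnegative Ricci curvature and, for some
`k ≥ 1`, more than `h_k(ℝ⁴)` independent harmonic functions of growth at most `k`. -/
theorem result :
    ∃ g : R4 → Matrix (Fin 4) (Fin 4) ℝ, IsMetric g ∧ RicciNonneg g ∧ IsComplete g ∧
      ∃ k : ℕ, 1 ≤ k ∧ ∃ u : Fin (Nat.choose (k + 3) k + Nat.choose (k + 2) (k - 1) + 1) → R4 → ℝ,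
        LinearIndependent ℝ u ∧ ∀ a, InH g k (u a) := by
  obtain ⟨g, k, hk, hg, hric, hc, u, hu, hin⟩ := counterexample
  exact ⟨g, hg, hric, hc, k, hk, u, hu, hin⟩

end Vale.Agent.Results.P225.YauComparisonFalse
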